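import Vale.Agent.P110.Main

/-! P110: the initial segments of one sequence of unimodular (in particular `±1`) coefficients
are not flat: explicit one-sided gap in every window `[M, 7M)`, and an averaged `L^4` bound. -/

namespace Vale.Agent.Results.P110.Prefixes

open Vale.Agent.P110

theorem result (ε : ℕ → ℂ) (hε : ∀ k, ‖ε k‖ = 1) :
    (∀ M : ℕ, 1 ≤ M → ∃ N, M ≤ N ∧ N < 7 * M ∧
      ∃ z : ℂ, ‖z‖ = 1 ∧ 1.06 * Real.sqrt N ≤ ‖seg ε N z‖) ∧
    (∀ M n : ℕ, (n : ℝ) ^ 2 * (2 * M + n - 1) / 3 ≤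
      ∑ N ∈ Finset.Ico M (M + 2 * n), (L4 ε N - (N : ℝ) ^ 2)) :=
  ⟨fun M hM => partA ε hε M hM, fun M n => partB ε hε M n⟩

end Vale.Agent.Results.P110.Prefixes
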